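import Vale.Agent.P181.TR.Defs

/-!
# P181, TR: [R2], labels and contents (pure numbers)
-/

set_option autoImplicit false

namespace Vale.Agent.P181.TR.H935

open Finset

/-- the content of the piece `p` of a letter with content `f` -/
def cc (q f p : ℕ) : ℕ := f / q + if p < f % q then 1 else 0

theorem cc_le (q f p : ℕ) : cc q f p ≤ f / q + 1 := by
  unfold cc
  split_ifs <;> omega

theorem sum_cc (q f : ℕ) (hq : 0 < q) : ∑ p : Fin q, cc q f (p : ℕ) = f := by
  unfold cc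
  rw [Finset.sum_add_distrib, Finset.sum_const, Finset.card_univ, Fintype.card_fin, smul_eq_mul,
    Finset.sum_boole]
  have h1 : (univ.filter fun p : Fin q => (p : ℕ) < f % q).card = f % q := by
    rw [Fin.card_filter_val_lt]
    exact min_eq_right (Nat.mod_lt _ hq).le
  rw [h1]
  simp only [Nat.cast_id]
  exact Nat.div_add_mod f q

section

variable {a Q R Y : ℕ}

/-- the free part of the labels -/
def ww (v : Fin a × Fin Q × Fin R → Fin Y) (i : Fin a) (p : Fin (Q + 1)) (l : Fin R) : ℕ :=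
  Fin.lastCases (motive := fun _ => ℕ) (Q * (Y - 1) - ∑ p' : Fin Q, ((v (i, p', l) : Fin Y) : ℕ))
    (fun p' => ((v (i, p', l) : Fin Y) : ℕ)) p

theorem ww_castSucc (v : Fin a × Fin Q × Fin R → Fin Y) (i : Fin a) (p : Fin Q) (l : Fin R) :
    ww v i p.castSucc l = ((v (i, p, l) : Fin Y) : ℕ) := by
  rw [ww, Fin.lastCases_castSucc]

theorem sum_v_le (v : Fin a × Fin Q × Fin R → Fin Y) (i : Fin a) (l : Fin R) :
    ∑ p' : Fin Q, ((v (i, p', l) : Fin Y) : ℕ) ≤ Q * (Y - 1) := by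
  calc ∑ p' : Fin Q, ((v (i, p', l) : Fin Y) : ℕ) ≤ ∑ _p' : Fin Q, (Y - 1) := by
        apply Finset.sum_le_sum
        intro p _
        have := (v (i, p, l)).2
        omega
    _ = Q * (Y - 1) := by
        rw [Finset.sum_const, Finset.card_univ, Fintype.card_fin, smul_eq_mul]

theorem sum_ww (v : Fin a × Fin Q × Fin R → Fin Y) (i : Fin a) (l : Fin R) :
    ∑ p, ww v i p l = Q * (Y - 1) := by
  rw [Fin.sum_univ_castSucc]
  simp only [ww_castSucc]
  rw [ww, Fin.lastCases_last]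
  have := sum_v_le v i l
  omega

theorem ww_le (v : Fin a × Fin Q × Fin R → Fin Y) (i : Fin a) (p : Fin (Q + 1)) (l : Fin R) :
    ww v i p l ≤ Q * (Y - 1) := by
  rw [← sum_ww v i l]
  exact Finset.single_le_sum (f := fun p => ww v i p l) (fun _ _ => Nat.zero_le _)
    (Finset.mem_univ p)

/-- the shift which separates the letters of equal size -/
def oo (m Y : ℕ) (i : Fin a) (l : Fin R) : ℕ :=
  if (l : ℕ) = 0 then (Q + 1) * Y * ((i : ℕ) % m) else 0

end

/-- **(R2)** with fixed contents -/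
theorem keyR' (a q m Y r t : ℕ) (ha : 0 < a) (hq : 2 ≤ q) (hm : 1 ≤ m) (hY : 1 ≤ Y)
    (hr : 2 ≤ r) :
    ∃ (KS : Finset (Fin a × Fin q → (Fin r → ℕ) × ℕ)) (T : Fin r → ℕ),
      (∀ x ∈ KS, ∀ j : Fin a × Fin q, ∑ l, (x j).1 l + (x j).2 =
        t / a / q + 2 + q * Y * (m + r) + 1 + q * ((j.1 : ℕ) / m) + (j.2 : ℕ)) ∧
      (∀ x ∈ KS, ∀ l, ∑ j, (x j).1 l = T l) ∧
      (∀ x ∈ KS, ∀ i : Fin a, ∑ p, (x (i, p)).2 = t / a + if (i : ℕ) < t % a then 1 else 0) ∧
      (∀ x ∈ KS, ∀ x' ∈ KS, ∀ j j' : Fin a × Fin q, (j.1 : ℕ) / m = (j'.1 : ℕ) / m →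
        j.2 = j'.2 → j ≠ j' → x j ≠ x' j') ∧
      Y ^ ((q - 1) * (r - 1) * a) ≤ KS.card ∧
      ∃ u : Fin a × Fin q → ℕ, ∀ x ∈ KS, ∀ j, (x j).2 = u j := by
  classical
  obtain ⟨Q, rfl⟩ : ∃ Q, q = Q + 1 := ⟨q - 1, by omega⟩
  obtain ⟨R, rfl⟩ : ∃ R, r = R + 1 := ⟨r - 1, by omega⟩
  set f : Fin a → ℕ := fun i => t / a + if (i : ℕ) < t % a then 1 else 0 with hf
  set s : Fin a × Fin (Q + 1) → ℕ := fun j =>
    t / a / (Q + 1) + 2 + (Q + 1) * Y * (m + (R + 1)) + 1 + (Q + 1) * ((j.1 : ℕ) / m) + (j.2 : ℕ)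
    with hs
  set c : Fin a × Fin (Q + 1) → ℕ := fun j => cc (Q + 1) (f j.1) (j.2 : ℕ) with hc
  set L : (Fin a × Fin Q × Fin R → Fin Y) → Fin a × Fin (Q + 1) → Fin R → ℕ := fun v j l =>
    ww v j.1 j.2 l + oo (Q := Q) m Y j.1 l with hL
  have hR0 : 0 < R := by omega
  -- bounds
  have hcle : ∀ j, c j ≤ t / a / (Q + 1) + 2 := by
    intro j
    have h1 := cc_le (Q + 1) (f j.1) (j.2 : ℕ)
    have h2 : f j.1 ≤ t / a + 1 := by
      simp only [hf]
      split_ifs <;> omega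
    have h3 : f j.1 / (Q + 1) ≤ t / a / (Q + 1) + 1 := by
      calc f j.1 / (Q + 1) ≤ (t / a + 1) / (Q + 1) := Nat.div_le_div_right h2
        _ ≤ (t / a + (Q + 1)) / (Q + 1) := Nat.div_le_div_right (by omega)
        _ = t / a / (Q + 1) + 1 := Nat.add_div_right _ (by omega)
    simp only [hc]
    omega
  have hww : ∀ (v : Fin a × Fin Q × Fin R → Fin Y) (j : Fin a × Fin (Q + 1)) (l : Fin R),
      ww v j.1 j.2 l < (Q + 1) * Y := by
    intro v j l
    have h1 := ww_le v j.1 j.2 l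
    calc ww v j.1 j.2 l ≤ Q * (Y - 1) := h1
      _ ≤ Q * Y := Nat.mul_le_mul_left _ (by omega)
      _ < (Q + 1) * Y := by
          rw [Nat.add_mul]
          omega
  have hsumoo : ∀ i : Fin a, ∑ l : Fin R, oo (Q := Q) m Y i l = (Q + 1) * Y * ((i : ℕ) % m) := by
    intro i
    rw [Finset.sum_eq_single (⟨0, hR0⟩ : Fin R)]
    · simp [oo]
    · intro l _ hl
      unfold oo
      rw [if_neg]
      intro h0
      exact hl (Fin.ext h0)
    · intro h
      exact absurd (Finset.mem_univ _) h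
  have hSle : ∀ v j, c j + ∑ l, L v j l ≤ s j := by
    intro v j
    have h1 : ∑ l, L v j l ≤ R * ((Q + 1) * Y) + (Q + 1) * Y * m := by
      simp only [hL]
      rw [Finset.sum_add_distrib, hsumoo]
      apply Nat.add_le_add
      · calc ∑ l : Fin R, ww v j.1 j.2 l ≤ ∑ _l : Fin R, (Q + 1) * Y :=
            Finset.sum_le_sum (fun l _ => (hww v j l).le)
          _ = R * ((Q + 1) * Y) := by
            rw [Finset.sum_const, Finset.card_univ, Fintype.card_fin, smul_eq_mul]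
      · exact Nat.mul_le_mul_left _ (Nat.mod_lt _ (by omega)).le
    have h2 := hcle j
    have h3 : (Q + 1) * Y * (m + (R + 1)) = (Q + 1) * Y * m + R * ((Q + 1) * Y) + (Q + 1) * Y := by
      ring
    simp only [hs]
    omega
  -- the family
  set X : (Fin a × Fin Q × Fin R → Fin Y) → Fin a × Fin (Q + 1) → (Fin (R + 1) → ℕ) × ℕ :=
    fun v j => (Fin.cons (s j - c j - ∑ l, L v j l) (L v j), c j) with hX
  have hX0 : ∀ v j, (X v j).1 0 = s j - c j - ∑ l, L v j l := fun v j => rfl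
  have hXs : ∀ v j (l : Fin R), (X v j).1 l.succ = L v j l := fun v j l => rfl
  have hX2 : ∀ v j, (X v j).2 = c j := fun v j => rfl
  set T' : Fin R → ℕ := fun l => ∑ i : Fin a, (Q * (Y - 1) + (Q + 1) * oo (Q := Q) m Y i l) with hT'
  have hsumL : ∀ v (l : Fin R), ∑ j, L v j l = T' l := by
    intro v l
    rw [Fintype.sum_prod_type]
    simp only [hL, hT']
    apply Finset.sum_congr rfl
    intro i _
    rw [Finset.sum_add_distrib, sum_ww, Finset.sum_const, Finset.card_univ, Fintype.card_fin,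
      smul_eq_mul]
  refine ⟨univ.image X, Fin.cons (∑ j, (s j - c j) - ∑ l, T' l) T', ?_, ?_, ?_, ?_, ?_, ?_⟩
  · intro x hx j
    obtain ⟨v, -, rfl⟩ := Finset.mem_image.1 hx
    rw [Fin.sum_univ_succ, hX0, hX2]
    simp only [hXs]
    have h1 := hSle v j
    have h2 : s j = t / a / (Q + 1) + 2 + (Q + 1) * Y * (m + (R + 1)) + 1 +
      (Q + 1) * ((j.1 : ℕ) / m) + (j.2 : ℕ) := rfl
    rw [← h2]
    omega
  · intro x hx l
    obtain ⟨v, -, rfl⟩ := Finset.mem_image.1 hx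
    refine Fin.cases ?_ (fun l => ?_) l
    · rw [Fin.cons_zero]
      simp only [hX0]
      have h1 : ∑ j, (s j - c j - ∑ l, L v j l) + ∑ j, ∑ l, L v j l = ∑ j, (s j - c j) := by
        rw [← Finset.sum_add_distrib]
        apply Finset.sum_congr rfl
        intro j _
        have := hSle v j
        omega
      have h2 : ∑ j, ∑ l, L v j l = ∑ l, T' l := by
        rw [Finset.sum_comm]
        exact Finset.sum_congr rfl (fun l _ => hsumL v l)
      rw [h2] at h1
      omega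
    · rw [Fin.cons_succ]
      simp only [hXs]
      exact hsumL v l
  · intro x hx i
    obtain ⟨v, -, rfl⟩ := Finset.mem_image.1 hx
    simp only [hX2]
    exact sum_cc (Q + 1) (f i) (by omega)
  · intro x hx x' hx' j j' h1 h2 hne heq
    obtain ⟨v, -, rfl⟩ := Finset.mem_image.1 hx
    obtain ⟨v', -, rfl⟩ := Finset.mem_image.1 hx'
    have h3 : L v j ⟨0, hR0⟩ = L v' j' ⟨0, hR0⟩ := by
      rw [← hXs v j, ← hXs v' j', heq]
    simp only [hL, oo, if_true] at h3
    have h4 := hww v j ⟨0, hR0⟩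
    have h5 := hww v' j' ⟨0, hR0⟩
    have h6 : ((j.1 : ℕ) % m) = ((j'.1 : ℕ) % m) := by
      have e1 : (ww v j.1 j.2 ⟨0, hR0⟩ + (Q + 1) * Y * ((j.1 : ℕ) % m)) / ((Q + 1) * Y) =
          (j.1 : ℕ) % m := by
        rw [Nat.add_mul_div_left _ _ (by omega), Nat.div_eq_of_lt h4, Nat.zero_add]
      have e2 : (ww v' j'.1 j'.2 ⟨0, hR0⟩ + (Q + 1) * Y * ((j'.1 : ℕ) % m)) / ((Q + 1) * Y) =
          (j'.1 : ℕ) % m := by
        rw [Nat.add_mul_div_left _ _ (by omega), Nat.div_eq_of_lt h5, Nat.zero_add]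
      rw [← e1, ← e2, h3]
    apply hne
    apply Prod.ext _ h2
    apply Fin.ext
    rw [← Nat.div_add_mod (j.1 : ℕ) m, ← Nat.div_add_mod (j'.1 : ℕ) m, h1, h6]
  · have hinj : Function.Injective X := by
      intro v v' hvv
      funext ⟨i, p, l⟩
      have h1 : L v (i, p.castSucc) l = L v' (i, p.castSucc) l := by
        rw [← hXs, ← hXs, hvv]
      simp only [hL, ww_castSucc] at h1
      apply Fin.ext
      omega
    rw [Finset.card_image_of_injective _ hinj, Finset.card_univ, Fintype.card_fun,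
      Fintype.card_prod, Fintype.card_prod, Fintype.card_fin, Fintype.card_fin, Fintype.card_fin,
      Fintype.card_fin]
    apply le_of_eq
    congr 1
    simp only [Nat.add_sub_cancel]
    ring
  · refine ⟨c, fun x hx j => ?_⟩
    obtain ⟨v, -, rfl⟩ := Finset.mem_image.1 hx
    exact hX2 v j

/-- **(R2)** -/
theorem keyR : KeyR := by
  intro a q m Y r t ha hq hm hY hr
  obtain ⟨KS, T, h1, h2, h3, h4, h5, -⟩ := keyR' a q m Y r t ha hq hm hY hr
  exact ⟨KS, T, h1, h2, h3, h4, h5⟩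

end Vale.Agent.P181.TR.H935
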